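import Vale.Agent.P272.K.AMP.Green2

/-!
# A function with nonnegative Laplacian on a compact Kähler manifold is harmonic
-/

open scoped Manifold ContDiff ComplexOrder Topology
open Set Filter MeasureTheory
open Vale.Agent.P272.K Vale.Agent.P272.K.INT Vale.Agent.P272.K.AMP

set_option linter.all false

noncomputable section

namespace Vale.Agent.P299.H954

variable {n : ℕ} {X : Type*} [TopologicalSpace X] [ChartedSpace (Cm n) X]
  [IsManifold 𝓘(ℂ, Cm n) ω X] [T2Space X] [CompactSpace X]

theorem intX_pos_of_pos {D : Chart n X → Cm n → ℝ} (hD : IsDensity D)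
    (h : ∀ e x, At e x → 0 ≤ D e (e x)) {x : X} (hx0 : ∀ e, At e x → 0 < D e (e x)) :
    0 < intX D := by
  set P := part n X with hP
  have h1 : ∃ i, 0 < P.ρ i x := by
    by_contra hcon
    push Not at hcon
    have := P.sum x
    have h2 : ∑ i, P.ρ i x ≤ 0 := Finset.sum_nonpos fun i _ => hcon i
    linarith
  obtain ⟨i, hi⟩ := h1
  have hx : x ∈ (P.e i).source := P.supp i (subset_tsupport _ (by
    simp only [Function.mem_support]; exact hi.ne'))
  have hDnn : ∀ j, ∀ z ∈ (P.e j).target, 0 ≤ D (P.e j) z := fun j z hz => by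
    have := h (P.e j) ((P.e j).symm z) ⟨P.mem j, (P.e j).map_target hz⟩
    rwa [(P.e j).right_inv hz] at this
  have hc : ContinuousAt (D (P.e i)) (P.e i x) :=
    (hD.continuousOn (P.mem i)).continuousAt ((P.e i).open_target.mem_nhds ((P.e i).map_source hx))
  have hpos : ∀ᶠ z in 𝓝 (P.e i x), 0 < D (P.e i) z :=
    hc.eventually (lt_mem_nhds (hx0 (P.e i) ⟨P.mem i, hx⟩))
  obtain ⟨O, hO, hOo, hxO⟩ := eventually_nhds_iff.1 hpos
  unfold intX
  rw [← hP]
  refine Finset.sum_pos' (fun j _ => ?_) ⟨i, Finset.mem_univ i, ?_⟩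
  · refine setIntegral_nonneg (P.e j).open_target.measurableSet fun z hz => ?_
    exact mul_nonneg (P.nonneg j _) (hDnn j z hz)
  · rw [setIntegral_pos_iff_support_of_nonneg_ae]
    · have hopen : IsOpen (((P.e i).target ∩ (P.e i).symm ⁻¹' {y | 0 < P.ρ i y}) ∩ O) :=
        ((P.e i).isOpen_inter_preimage_symm (isOpen_lt continuous_const (P.cont i))).inter hOo
      refine (hopen.measure_pos volume ⟨P.e i x, ?_⟩).trans_le (measure_mono ?_)
      · refine ⟨⟨(P.e i).map_source hx, ?_⟩, hxO⟩
        change 0 < P.ρ i ((P.e i).symm (P.e i x))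
        rw [(P.e i).left_inv hx]; exact hi
      · rintro z ⟨⟨hz1, hz2⟩, hz3⟩
        refine ⟨?_, hz1⟩
        simp only [Function.mem_support]
        exact (mul_pos hz2 (hO z hz3)).ne'
    · filter_upwards [self_mem_ae_restrict (P.e i).open_target.measurableSet] with z hz
      exact mul_nonneg (P.nonneg i _) (hDnn i z hz)
    · exact integrableOn_part P hD i

variable {g : Chart n X → Cm n → Matrix (Fin n) (Fin n) ℂ} {u : X → ℝ}

theorem lapX_eq_zero (hg : IsKahler g) (hu : SmoothFn (n := n) u) (h : ∀ x, 0 ≤ lapX g u x)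
    (x : X) : lapX g u x = 0 := by
  by_contra hne
  have hx : 0 < lapX g u x := lt_of_le_of_ne (h x) (Ne.symm hne)
  have h1 := IX_lapX hg hu
  have h2 : 0 < IX g (lapX g u) := by
    have hp : ∀ e (y : X), At e y → 0 < (g e (e y)).det.re := fun e y hy =>
      (Complex.lt_def.1 (hg.toIsHermitian.posDef e y hy).det_pos).1
    refine intX_pos_of_pos (isDensity_IX hg.toIsHermitian
      (SmoothFn.continuous (smoothFn_lapX hg.toIsHermitian hu))) ?_ (x := x) ?_
    · intro e y hy
      exact mul_nonneg (h _) (hp e y hy).le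
    · intro e hy
      show 0 < lapX g u (e.symm (e x)) * _
      rw [e.left_inv hy.2]
      exact mul_pos hx (hp e x hy)
  exact h2.ne' h1

end Vale.Agent.P299.H954
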