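import Vale.Agent.P299.H954.VF

/-!
# D4 (c): holomorphic covariant tensors on compact Kähler manifolds with `Ric ≥ 0`
-/

open scoped Manifold ContDiff ComplexOrder Topology Matrix
open Vale.Agent.P272.K Vale.Agent.P272.K.C2 Vale.Agent.P272.K.AMP

set_option linter.unusedSectionVars false

noncomputable section

namespace Vale.Agent.P299.H954

variable {n p : ℕ} {X : Type*} [TopologicalSpace X] [ChartedSpace (Cm n) X]
  {w : D.FormM n X} {s : D.Ten n (p + 1) X} {e : Chart n X} {x : X}

/-- the tensor as a matrix, first index against the others -/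
def matT (s : D.Ten n (p + 1) X) (e : Chart n X) (z : Cm n) : Matrix (Fin n) (Fin p → Fin n) ℂ :=
  Matrix.of fun i A => s e z (Fin.cons i A)

/-- the metric on the tensors of degree `p` -/
def metT (p : ℕ) (w : D.FormM n X) (e : Chart n X) (z : Cm n) :
    Matrix (Fin p → Fin n) (Fin p → Fin n) ℂ := tp p (dual (w e) z)

/-- `⟨ι_i s, ι_j s⟩` -/
def gramT (w : D.FormM n X) (s : D.Ten n (p + 1) X) : D.FormM n X := fun e z =>
  matT s e z * metT p w e z * (matT s e z)ᴴ

theorem matT_analytic (hs : D.IsTen (p + 1) 0 s) (hx : At e x) (i : Fin n) (A : Fin p → Fin n) :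
    AnalyticAt ℂ (fun z => matT s e z i A) (e x) := hs.holo e x hx _

theorem dual_posDef (hw : (w e (e x)).PosDef) : (dual (w e) (e x)).PosDef :=
  hw.inv.transpose

theorem metT_posDef (hw : (w e (e x)).PosDef) : (metT p w e (e x)).PosDef :=
  tp_posDef p (dual_posDef hw)

theorem MC_metT {r : WithTop ℕ∞} (hw : MC r (w e) (e x)) (h0 : (w e (e x)).det ≠ 0) :
    MC r (metT p w e) (e x) := MC_tp p (MC_dual hw h0)

theorem gramT_posSemidef (hw : (w e (e x)).PosDef) : (gramT w s e (e x)).PosSemidef :=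
  (metT_posDef hw).posSemidef.mul_mul_conjTranspose_same _

/-- change of charts for `matT` -/
theorem matT_change (hs : D.IsTen (p + 1) 0 s) {e' : Chart n X} (hx : At e x) (hx' : At e' x) :
    matT s e (e x) = (jacM e e' x)ᵀ * matT s e' (e' x) * tp p (jacM e e' x) := by
  ext i A
  have h := hs.change e e' x hx hx' (Fin.cons i A)
  rw [pow_zero, one_mul] at h
  show s e (e x) (Fin.cons i A) = _
  rw [h, D.tenPull, Matrix.mul_apply]
  simp only [Matrix.mul_apply, Matrix.transpose_apply, tp_apply, matT, Matrix.of_apply,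
    Finset.sum_mul]
  rw [← (Fin.consEquiv fun _ => Fin n).sum_comp, Fintype.sum_prod_type, Finset.sum_comm]
  refine Finset.sum_congr rfl fun B _ => Finset.sum_congr rfl fun j _ => ?_
  have hc : (Fin.consEquiv fun _ => Fin n) (j, B) = (Fin.cons j B : Fin (p + 1) → Fin n) := rfl
  rw [Fin.prod_univ_succ, hc]
  simp only [Fin.cons_zero, Fin.cons_succ]
  ring

theorem gramT_isForm [IsManifold 𝓘(ℂ, Cm n) ω X] (hw : IsHermitian w)
    (hs : D.IsTen (p + 1) 0 s) : IsForm (gramT w s) := by
  intro e e' x hx hx'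
  set J := jacM e e' x with hJ
  have hJu : IsUnit J.det := jacM_isUnit hx hx'
  have hw1 := hw.change e e' x hx hx'
  rw [← hJ] at hw1
  have hd : dual (w e) (e x) = J⁻¹ * dual (w e') (e' x) * (J⁻¹)ᴴ := by
    unfold dual
    rw [hw1, inv_form hJu]
    simp only [Matrix.transpose_mul, Matrix.transpose_nonsing_inv, Matrix.transpose_transpose,
      Matrix.mul_assoc]
    congr 3
    rw [Matrix.conjTranspose_nonsing_inv]
    rfl
  have hm : metT p w e (e x) = tp p J⁻¹ * metT p w e' (e' x) * (tp p J⁻¹)ᴴ := by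
    unfold metT
    rw [hd, tp_mul, tp_mul, tp_conjTranspose]
  have h1 : tp p J * tp p J⁻¹ = 1 := by rw [← tp_mul, Matrix.mul_nonsing_inv _ hJu, tp_one]
  have h2 : (tp p J⁻¹)ᴴ * (tp p J)ᴴ = 1 := by
    rw [← Matrix.conjTranspose_mul, h1, Matrix.conjTranspose_one]
  unfold gramT
  rw [matT_change hs hx hx', hm, ← hJ]
  have e3 : (Jᵀ * matT s e' (e' x) * tp p J)ᴴ =
      (tp p J)ᴴ * (matT s e' (e' x))ᴴ * J.map (starRingEnd ℂ) := by
    simp only [Matrix.conjTranspose_mul, Matrix.mul_assoc]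
    rfl
  rw [e3]
  calc Jᵀ * matT s e' (e' x) * tp p J * (tp p J⁻¹ * metT p w e' (e' x) * (tp p J⁻¹)ᴴ) *
        ((tp p J)ᴴ * (matT s e' (e' x))ᴴ * J.map (starRingEnd ℂ))
      = Jᵀ * matT s e' (e' x) * (tp p J * tp p J⁻¹) * metT p w e' (e' x) *
        ((tp p J⁻¹)ᴴ * (tp p J)ᴴ) * (matT s e' (e' x))ᴴ * J.map (starRingEnd ℂ) := by
        simp only [Matrix.mul_assoc]
    _ = _ := by rw [h1, h2]; simp only [Matrix.mul_assoc, Matrix.mul_one]

variable [IsManifold 𝓘(ℂ, Cm n) ω X] [T2Space X] [CompactSpace X]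

/-- `|s|²` as a complex number -/
def sqT (w : D.FormM n X) (s : D.Ten n (p + 1) X) (e : Chart n X) (z : Cm n) : ℂ :=
  ((w e z)⁻¹ * gramT w s e z).trace

theorem sqT_conj (hw : (w e (e x)).PosDef) :
    (starRingEnd ℂ) (sqT w s e (e x)) = sqT w s e (e x) := by
  show star _ = _
  rw [sqT, ← Matrix.trace_conjTranspose, Matrix.conjTranspose_mul,
    (gramT_posSemidef (s := s) hw).isHermitian.eq, Matrix.conjTranspose_nonsing_inv,
    hw.isHermitian.eq, Matrix.trace_mul_comm]

theorem MC_gramT (hw : IsHermitian w) (hs : D.IsTen (p + 1) 0 s) (hx : At e x) :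
    MC ∞ (gramT w s e) (e x) := by
  have h1 : MC ∞ (matT s e) (e x) := MC_of_analyticAt (matT_analytic hs hx)
  have h2 : MC ∞ (metT p w e) (e x) := MC_metT (hw.smooth e x hx) (hw.posDef e x hx).det_pos.ne'
  exact (h1.mul h2).mul h1.conjTranspose

/-- **Bochner** for holomorphic covariant tensors: `s` is parallel and `ric w⁻¹ ⟨ι s, ι s⟩ = 0` -/
theorem bochner_tensor (hw : IsKahler w) (hric : D.RicNonneg w) (hs : D.IsTen (p + 1) 0 s)
    (hx : At e x) :
    (∀ k, nabG k (w e) (matT s e) (metT p w e) (e x) = 0) ∧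
      D.ric w e (e x) * (w e (e x))⁻¹ * gramT w s e (e x) = 0 := by
  have hwH := hw.toIsHermitian
  have hform := gramT_isForm hwH hs
  set u : X → ℝ := trX w (gramT w s) with hu
  have hus : SmoothFn (n := n) u := smoothFn_trX hwH hform fun e x hx => MC_gramT hwH hs hx
  have hue : ∀ (e : Chart n X) (x : X), At e x → ∀ᶠ y in 𝓝 (e x), u (e.symm y) = (sqT w s e y).re := by
    intro e x hx
    filter_upwards [eventually_at hx] with y hy
    rw [hu, trX_eq hwH hform hy.1, hy.2]
    rfl
  have hcj : ∀ (e : Chart n X) (x : X), At e x →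
      ∀ᶠ y in 𝓝 (e x), (starRingEnd ℂ) (sqT w s e y) = sqT w s e y := by
    intro e x hx
    filter_upwards [eventually_at hx] with y hy
    have := sqT_conj (s := s) (hwH.posDef e _ hy.1)
    rwa [hy.2] at this
  -- the three terms
  set T1 : Chart n X → X → ℂ := fun e x => ∑ l, ∑ k, (w e (e x))⁻¹ l k *
    ((w e (e x))⁻¹ * nabG k (w e) (matT s e) (metT p w e) (e x) * metT p w e (e x) *
      (nabG l (w e) (matT s e) (metT p w e) (e x))ᴴ).trace with hT1
  set T2 : Chart n X → X → ℂ := fun e x => ((w e (e x))⁻¹ * (matT s e (e x) *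
    (-RmS (w e) (metT p w e) (e x)) * (matT s e (e x))ᴴ)).trace with hT2
  set T3 : Chart n X → X → ℂ := fun e x => ((w e (e x))⁻¹ * D.ric w e (e x) * (w e (e x))⁻¹ *
    gramT w s e (e x)).trace with hT3
  have key : ∀ (e : Chart n X) (x : X), At e x → lapX w u x = (T1 e x + T2 e x + T3 e x).re := by
    intro e x hx
    have hS : MC 2 (matT s e) (e x) := MC_of_analyticAt (matT_analytic hs hx)
    have hG : MC 2 (w e) (e x) := IsHermitian.MC hwH hx
    have g0 := (hwH.posDef e x hx).det_pos.ne'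
    have hH : MC 2 (metT p w e) (e x) := MC_metT hG g0
    have hHh : ∀ᶠ y in 𝓝 (e x), (metT p w e y).IsHermitian := by
      filter_upwards [eventually_at hx] with y hy
      have := (metT_posDef (p := p) (hwH.posDef e _ hy.1)).isHermitian
      rwa [hy.2] at this
    rw [lapX_eq_of_chart hwH hus hx (hue e x hx) (hcj e x hx)]
    congr 1
    have e1 : ∀ k l, dz k (dzb l (sqT w s e)) (e x) =
        ((w e (e x))⁻¹ * nabG k (w e) (matT s e) (metT p w e) (e x) * metT p w e (e x) *
          (nabG l (w e) (matT s e) (metT p w e) (e x))ᴴ).trace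
        - ((w e (e x))⁻¹ * (matT s e (e x) * RM k l (metT p w e) (e x) * (matT s e (e x))ᴴ)).trace
        + ((w e (e x))⁻¹ * RM k l (w e) (e x) * (w e (e x))⁻¹ *
          (matT s e (e x) * metT p w e (e x) * (matT s e (e x))ᴴ)).trace := fun k l =>
      D2_trace_inv hG hS hH (holNear_of_analyticAt (matT_analytic hs hx))
        (IsHermitian.ev_herm hwH hx) hHh g0 (metT_posDef (hwH.posDef e x hx)).det_pos.ne'
    have e2 : T2 e x = -∑ l, ∑ k, (w e (e x))⁻¹ l k * ((w e (e x))⁻¹ *
        (matT s e (e x) * RM k l (metT p w e) (e x) * (matT s e (e x))ᴴ)).trace := by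
      simp only [hT2, RmS]
      simp only [Matrix.mul_neg, Matrix.neg_mul, Matrix.trace_neg, Matrix.mul_sum, Matrix.sum_mul,
        Matrix.trace_sum, Matrix.mul_smul, Matrix.smul_mul, Matrix.trace_smul, smul_eq_mul]
    have e3 : T3 e x = ∑ l, ∑ k, (w e (e x))⁻¹ l k * ((w e (e x))⁻¹ * RM k l (w e) (e x) *
        (w e (e x))⁻¹ * (matT s e (e x) * metT p w e (e x) * (matT s e (e x))ᴴ)).trace := by
      simp only [hT3]
      rw [← RmS_self' hw hx, RmS]
      simp only [Matrix.mul_sum, Matrix.sum_mul,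
        Matrix.trace_sum, Matrix.mul_smul, Matrix.smul_mul, Matrix.trace_smul, smul_eq_mul]
      rfl
    rw [e2, e3, hT1]
    simp only [e1, mul_add, mul_sub, Finset.sum_add_distrib, Finset.sum_sub_distrib]
    ring
  have p1 : ∀ (e : Chart n X) (x : X), At e x → 0 ≤ T1 e x := fun e x hx =>
    sum_trace_nonneg' (hwH.posDef e x hx).inv.posSemidef (hwH.posDef e x hx).inv.posSemidef
      (metT_posDef (hwH.posDef e x hx)).posSemidef _
  have p2 : ∀ (e : Chart n X) (x : X), At e x → 0 ≤ T2 e x := by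
    intro e x hx
    refine trace_mul_nonneg (hwH.posDef e x hx).inv.posSemidef ?_
    refine Matrix.PosSemidef.mul_mul_conjTranspose_same ?_ _
    exact neg_RmS_tp p (MC_dual (IsHermitian.MC hwH hx) (hwH.posDef e x hx).det_pos.ne')
      (dual_posDef (hwH.posDef e x hx)) (posSemidef_of_ric_nonneg hw hric hx)
  have hC : ∀ (e : Chart n X) (x : X), At e x →
      ((w e (e x))⁻¹ * D.ric w e (e x) * (w e (e x))⁻¹).PosSemidef := by
    intro e x hx
    have := (hric e x hx).mul_mul_conjTranspose_same (w e (e x))⁻¹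
    rwa [Matrix.conjTranspose_nonsing_inv, (hwH.posDef e x hx).isHermitian.eq] at this
  have p3 : ∀ (e : Chart n X) (x : X), At e x → 0 ≤ T3 e x := fun e x hx =>
    trace_mul_nonneg (hC e x hx) (gramT_posSemidef (hwH.posDef e x hx))
  have h0 : ∀ y, 0 ≤ lapX w u y := by
    intro y
    rw [key _ y (at_chartAt y)]
    exact (Complex.le_def.1 (add_nonneg (add_nonneg (p1 _ y (at_chartAt y)) (p2 _ y (at_chartAt y)))
      (p3 _ y (at_chartAt y)))).1
  have h1 := lapX_eq_zero hw hus h0 x
  rw [key e x hx] at h1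
  have q1 := p1 e x hx
  have q2 := p2 e x hx
  have q3 := p3 e x hx
  simp only [Complex.add_re] at h1
  have r1 := (Complex.le_def.1 q1)
  have r2 := (Complex.le_def.1 q2)
  have r3 := (Complex.le_def.1 q3)
  simp only [Complex.zero_re, Complex.zero_im] at r1 r2 r3
  have z1 : T1 e x = 0 := Complex.ext (by simp only [Complex.zero_re]; linarith) (by simp [← r1.2])
  have z3 : T3 e x = 0 := Complex.ext (by simp only [Complex.zero_re]; linarith) (by simp [← r3.2])
  refine ⟨fun k => eq_zero_of_sum_trace (hwH.posDef e x hx).inv (hwH.posDef e x hx).inv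
    (metT_posDef (hwH.posDef e x hx)) _ z1 k, ?_⟩
  have h4 := mul_eq_zero_of_trace (hC e x hx) (gramT_posSemidef (s := s) (hwH.posDef e x hx)) z3
  have hu : IsUnit (w e (e x)).det := isUnit_iff_ne_zero.2 (hwH.posDef e x hx).det_pos.ne'
  have h5 := congrArg (w e (e x) * ·) h4
  simpa only [Matrix.mul_zero, ← Matrix.mul_assoc, Matrix.mul_nonsing_inv _ hu,
    Matrix.one_mul] using h5

/-- the holomorphic self-adjoint endomorphism field attached to a holomorphic tensor:
`Bᵀ = ⟨ι_i s, ι_j s⟩ w⁻¹` -/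
def endT (w : D.FormM n X) (s : D.Ten n (p + 1) X) : D.FormM n X := fun e z =>
  (gramT w s e z * (w e z)⁻¹)ᵀ

theorem endT_isHolEnd (hw : IsKahler w) (hric : D.RicNonneg w) (hs : D.IsTen (p + 1) 0 s) :
    D.IsHolEnd (endT w s) := by
  have hwH := hw.toIsHermitian
  have one := one_ne_zero_inf
  constructor
  · intro e x hx i j
    have h1 : ∀ y : X, At e y → ∀ l, DMb l (fun z => gramT w s e z * (w e z)⁻¹) (e y) = 0 := by
      intro y hy l
      have hS : MC 1 (matT s e) (e y) := MC_of_analyticAt (matT_analytic hs hy)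
      have hG : MC 1 (w e) (e y) := (IsHermitian.MC hwH hy).mono (by norm_num)
      have g0 := (hwH.posDef e y hy).det_pos.ne'
      have hH : MC 1 (metT p w e) (e y) := MC_metT hG g0
      have hHh : ∀ᶠ y in 𝓝 (e y), (metT p w e y).IsHermitian := by
        filter_upwards [eventually_at hy] with z hz
        have := (metT_posDef (p := p) (hwH.posDef e _ hz.1)).isHermitian
        rwa [hz.2] at this
      have hM : MC 1 (gramT w s e) (e y) := (MC_gramT hwH hs hy).mono (by norm_cast)
      have h0 := (metT_posDef (p := p) (hwH.posDef e y hy)).det_pos.ne'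
      have e1 : DMb l (gramT w s e) (e y) =
          matT s e (e y) * metT p w e (e y) * (nab l (matT s e) (metT p w e) (e y))ᴴ :=
        DMb_sandwich' hS hH ((holNear_of_analyticAt (matT_analytic hs hy)).self l) hHh h0
      have e2 : nab l (matT s e) (metT p w e) (e y) =
          DM l (w e) (e y) * (w e (e y))⁻¹ * matT s e (e y) := by
        have := (bochner_tensor hw hric hs hy).1 l
        rw [nabG] at this
        exact sub_eq_zero.1 this
      rw [DMb_mul (hM.md one) ((hG.inv g0).md one), DMb_inv hG g0, e1, e2,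
        Matrix.conjTranspose_mul, Matrix.conjTranspose_mul,
        ← DMb_of_isHermitian (hG.md one) (IsHermitian.ev_herm hwH hy),
        Matrix.conjTranspose_nonsing_inv, (hwH.posDef e y hy).isHermitian.eq]
      unfold gramT
      simp only [Matrix.mul_neg, Matrix.mul_assoc]
      exact add_neg_cancel _
    have h2 : ∀ y : X, At e y → MC 1 (fun z => gramT w s e z * (w e z)⁻¹) (e y) := fun y hy =>
      ((MC_gramT hwH hs hy).mono (by norm_cast)).mul
        (((IsHermitian.MC hwH hy).mono (by norm_num)).inv (hwH.posDef e y hy).det_pos.ne')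
    refine analyticAt_of_dzb ?_
    filter_upwards [eventually_at hx] with z hz
    have h3 := h2 _ hz.1 j i
    have h4 := fun l => congrFun (congrFun (h1 _ hz.1 l) j) i
    rw [hz.2] at h3 h4
    exact ⟨h3.differentiableAt (by norm_num), h4⟩
  · intro e e' x hx hx'
    have hJu : IsUnit (jacM e e' x).det := jacM_isUnit hx hx'
    unfold endT
    rw [gramT_isForm hwH hs e e' x hx hx', hwH.change e e' x hx hx', inv_form hJu]
    set J := jacM e e' x with hJ
    have hJc := isUnit_conj hJu
    have e1 : Jᵀ * gramT w s e' (e' x) * J.map (starRingEnd ℂ) *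
        ((J.map (starRingEnd ℂ))⁻¹ * (w e' (e' x))⁻¹ * (Jᵀ)⁻¹) =
        Jᵀ * (gramT w s e' (e' x) * (w e' (e' x))⁻¹) * (Jᵀ)⁻¹ := by
      calc _ = Jᵀ * gramT w s e' (e' x) * (J.map (starRingEnd ℂ) * (J.map (starRingEnd ℂ))⁻¹) *
          (w e' (e' x))⁻¹ * (Jᵀ)⁻¹ := by simp only [Matrix.mul_assoc]
        _ = _ := by rw [Matrix.mul_nonsing_inv _ hJc]; simp only [Matrix.mul_assoc, Matrix.one_mul]
    rw [e1, Matrix.transpose_mul, Matrix.transpose_mul, Matrix.transpose_transpose,
      Matrix.transpose_nonsing_inv, Matrix.transpose_transpose, ← Matrix.mul_assoc,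
      Matrix.mul_nonsing_inv _ hJu, Matrix.one_mul]

theorem endT_isSelfAdj (hw : IsKahler w) : D.IsSelfAdj w (endT w s) := by
  intro e x hx
  have hwP := hw.toIsHermitian.posDef e x hx
  have hu : IsUnit (w e (e x)).det := isUnit_iff_ne_zero.2 hwP.det_pos.ne'
  have hg : (gramT w s e (e x))ᴴ = gramT w s e (e x) := (gramT_posSemidef hwP).isHermitian
  have e1 : (endT w s e (e x)).map (starRingEnd ℂ) = (w e (e x))⁻¹ * gramT w s e (e x) := by
    have : (endT w s e (e x)).map (starRingEnd ℂ) =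
        (gramT w s e (e x) * (w e (e x))⁻¹)ᴴ := rfl
    rw [this, Matrix.conjTranspose_mul, hg, Matrix.conjTranspose_nonsing_inv, hwP.isHermitian.eq]
  rw [e1, endT, Matrix.transpose_transpose, Matrix.mul_assoc, Matrix.nonsing_inv_mul _ hu,
    ← Matrix.mul_assoc, Matrix.mul_nonsing_inv _ hu, Matrix.mul_one, Matrix.one_mul]

theorem endT_ricKills (hw : IsKahler w) (hric : D.RicNonneg w) (hs : D.IsTen (p + 1) 0 s) :
    D.RicKills w (endT w s) := by
  intro e x hx
  have hwP := hw.toIsHermitian.posDef e x hx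
  have hg : (gramT w s e (e x))ᴴ = gramT w s e (e x) := (gramT_posSemidef hwP).isHermitian
  have h := congrArg Matrix.conjTranspose (bochner_tensor hw hric hs hx).2
  rw [Matrix.conjTranspose_mul, Matrix.conjTranspose_mul, hg, Matrix.conjTranspose_nonsing_inv,
    hwP.isHermitian.eq, (hric e x hx).isHermitian.eq, Matrix.conjTranspose_zero,
    ← Matrix.mul_assoc] at h
  rw [endT, Matrix.transpose_transpose]
  exact h

theorem eq_zero_of_endT (hw : IsKahler w) (hx : At e x) (h : endT w s e (e x) = 0)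
    (I : Fin (p + 1) → Fin n) : s e (e x) I = 0 := by
  have hwP := hw.toIsHermitian.posDef e x hx
  have hu : IsUnit (w e (e x)).det := isUnit_iff_ne_zero.2 hwP.det_pos.ne'
  have h1 : gramT w s e (e x) * (w e (e x))⁻¹ = 0 := by
    rw [endT] at h
    simpa using congrArg Matrix.transpose h
  have h2 : gramT w s e (e x) = 0 := by
    have := congrArg (· * w e (e x)) h1
    simpa [Matrix.mul_assoc, Matrix.nonsing_inv_mul _ hu] using this
  obtain ⟨C, hC⟩ := exists_factor (metT_posDef (p := p) hwP).posSemidef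
  have hCu : IsUnit (Cᴴ).det := by
    rw [Matrix.det_conjTranspose]
    exact (isUnit_iff_ne_zero.2 (det_ne_zero_of_factor (metT_posDef (p := p) hwP) hC)).star
  have h3 : (matT s e (e x) * Cᴴ) * (matT s e (e x) * Cᴴ)ᴴ = 0 := by
    rw [Matrix.conjTranspose_mul, Matrix.conjTranspose_conjTranspose]
    rw [gramT, hC] at h2
    simpa only [Matrix.mul_assoc] using h2
  have h4 : matT s e (e x) * Cᴴ = 0 := Matrix.self_mul_conjTranspose_eq_zero.1 h3
  have h5 : matT s e (e x) = 0 := by
    have := congrArg (· * (Cᴴ)⁻¹) h4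
    simpa [Matrix.mul_assoc, Matrix.mul_nonsing_inv _ hCu] using this
  have h6 := congrFun (congrFun h5 (I 0)) (fun a => I a.succ)
  have h7 : (Fin.cons (I 0) (fun a => I a.succ) : Fin (p + 1) → Fin n) = I := Fin.cons_self_tail I
  rw [matT, Matrix.of_apply, h7] at h6
  exact h6

/-- **D4 (c)** -/
theorem d4c : D.D4cStatement := by
  intro n X _ _ _ _ _ _ w _ _ S _ p hp s hs e y I hy
  obtain ⟨q, rfl⟩ : ∃ q, p = q + 1 := ⟨p - 1, by omega⟩
  have := S.t2Y 2
  exact eq_zero_of_endT (S.kahY 2) hy (S.noEnd _ (endT_isHolEnd (S.kahY 2) (S.ricY 2) hs)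
    (endT_isSelfAdj (S.kahY 2)) (endT_ricKills (S.kahY 2) (S.ricY 2) hs) e y hy) I

/-- **D4 (b1)** for `Y 1` -/
theorem holVF_zero {n : ℕ} {X : Type} [TopologicalSpace X] [ChartedSpace (Cm n) X]
    {w : D.FormM n X} (S : D.Split n X w) [CompactSpace (S.Y 1)] (v : D.VField (S.d 1) (S.Y 1))
    (hv : D.IsHolVF v) (e : Chart (S.d 1) (S.Y 1)) (y : S.Y 1) (hy : At e y) : v e (e y) = 0 := by
  have := S.t2Y 1
  exact S.noPar 1 (by decide) v (isParVF_of_ricZero (S.kahY 1) S.ric1 hv) e y hy

end Vale.Agent.P299.H954
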