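import Vale.Agent.P272.K.C2.ChernLu
import Mathlib.LinearAlgebra.Matrix.Kronecker

/-!
# Local Bochner identities

`S` is a holomorphic matrix valued function, `H` a Hermitian metric (matrix) on the second index,
`K` a Hermitian metric on the first index.
-/

open scoped Manifold ContDiff ComplexOrder Topology Matrix Kronecker
open Vale.Agent.P272.K Vale.Agent.P272.K.C2

noncomputable section

namespace Vale.Agent.P299.H954

variable {n : ℕ} {ι κ : Type*} [Fintype ι] [DecidableEq ι] [Fintype κ] [DecidableEq κ]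
  {S : Cm n → Matrix κ ι ℂ} {H : Cm n → Matrix ι ι ℂ} {K : Cm n → Matrix κ κ ℂ} {z : Cm n}
  {k l : Fin n}

/-- covariant derivative with respect to the second index: `∂_k S + S ∂_k H H⁻¹` -/
def nab (k : Fin n) (S : Cm n → Matrix κ ι ℂ) (H : Cm n → Matrix ι ι ℂ) (z : Cm n) :
    Matrix κ ι ℂ := DM k S z + S z * DM k H z * (H z)⁻¹

/-- covariant derivative with respect to both indices -/
def nab2 (k : Fin n) (K : Cm n → Matrix κ κ ℂ) (S : Cm n → Matrix κ ι ℂ)
    (H : Cm n → Matrix ι ι ℂ) (z : Cm n) : Matrix κ ι ℂ :=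
  nab k S H z + (K z)⁻¹ * DM k K z * S z

/-- holomorphic near `z` (in the form used here) -/
def HolNear (S : Cm n → Matrix κ ι ℂ) (z : Cm n) : Prop :=
  ∀ᶠ y in 𝓝 z, ∀ l, DMb l S y = 0

omit [Fintype ι] [DecidableEq ι] [Fintype κ] [DecidableEq κ] in
theorem HolNear.self (h : HolNear S z) (l : Fin n) : DMb l S z = 0 := h.self_of_nhds l

theorem one_ne_zero_inf : (1 : WithTop ℕ∞) ≠ 0 := by norm_num

omit [DecidableEq ι] [Fintype κ] [DecidableEq κ] in
theorem DMb_sandwich (hS : MC 1 S z) (hH : MC 1 H z) (hSh : DMb l S z = 0) :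
    DMb l (fun y => S y * H y * (S y)ᴴ) z =
      S z * DMb l H z * (S z)ᴴ + S z * H z * (DM l S z)ᴴ := by
  have one := one_ne_zero_inf
  rw [DMb_mul ((hS.mul hH).md one) (hS.conjTranspose.md one), DMb_mul (hS.md one) (hH.md one),
    DMb_conjTranspose (hS.md one), hSh, Matrix.zero_mul, zero_add]

omit [DecidableEq ι] [Fintype κ] [DecidableEq κ] in
theorem DM_sandwich (hS : MC 1 S z) (hH : MC 1 H z) (hSh : DMb k S z = 0) :
    DM k (fun y => S y * H y * (S y)ᴴ) z =
      DM k S z * H z * (S z)ᴴ + S z * DM k H z * (S z)ᴴ := by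
  have one := one_ne_zero_inf
  rw [DM_mul ((hS.mul hH).md one) (hS.conjTranspose.md one), DM_mul (hS.md one) (hH.md one),
    DM_conjTranspose (hS.md one), hSh, Matrix.conjTranspose_zero, Matrix.mul_zero, add_zero,
    Matrix.add_mul]

omit [Fintype κ] [DecidableEq κ] in
theorem DM_sandwich' (hS : MC 1 S z) (hH : MC 1 H z) (hSh : DMb k S z = 0)
    (h0 : (H z).det ≠ 0) :
    DM k (fun y => S y * H y * (S y)ᴴ) z = nab k S H z * H z * (S z)ᴴ := by
  rw [DM_sandwich hS hH hSh, nab, Matrix.add_mul, Matrix.add_mul]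
  congr 2
  rw [Matrix.mul_assoc (S z * DM k H z), Matrix.nonsing_inv_mul _ (isUnit_iff_ne_zero.2 h0),
    Matrix.mul_one]

omit [Fintype κ] [DecidableEq κ] in
theorem nab_conjTranspose (hH : MD H z) (hHh : ∀ᶠ y in 𝓝 z, (H y).IsHermitian) :
    (nab l S H z)ᴴ = (DM l S z)ᴴ + (H z)⁻¹ * DMb l H z * (S z)ᴴ := by
  have hg := hHh.self_of_nhds
  rw [nab, Matrix.conjTranspose_add, Matrix.conjTranspose_mul, Matrix.conjTranspose_mul,
    ← DMb_of_isHermitian hH hHh, Matrix.conjTranspose_nonsing_inv, hg.eq, Matrix.mul_assoc]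

omit [Fintype κ] [DecidableEq κ] in
theorem DMb_sandwich' (hS : MC 1 S z) (hH : MC 1 H z) (hSh : DMb l S z = 0)
    (hHh : ∀ᶠ y in 𝓝 z, (H y).IsHermitian) (h0 : (H z).det ≠ 0) :
    DMb l (fun y => S y * H y * (S y)ᴴ) z = S z * H z * (nab l S H z)ᴴ := by
  have one := one_ne_zero_inf
  rw [DMb_sandwich hS hH hSh, nab_conjTranspose (hH.md one) hHh, Matrix.mul_add, add_comm]
  congr 1
  rw [← Matrix.mul_assoc, ← Matrix.mul_assoc, Matrix.mul_assoc (S z) (H z),
    Matrix.mul_nonsing_inv _ (isUnit_iff_ne_zero.2 h0), Matrix.mul_one]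

omit [DecidableEq κ] in
/-- second derivative of `S H S*` for holomorphic `S` -/
theorem D2_sandwich (hS : MC 2 S z) (hH : MC 2 H z) (hSh : HolNear S z)
    (hHh : ∀ᶠ y in 𝓝 z, (H y).IsHermitian) (h0 : (H z).det ≠ 0) :
    DM k (DMb l (fun y => S y * H y * (S y)ᴴ)) z =
      nab k S H z * H z * (nab l S H z)ᴴ - S z * RM k l H z * (S z)ᴴ := by
  have one := one_ne_zero_inf
  have hS1 : MC 1 S z := hS.mono (by norm_num)
  have hH1 : MC 1 H z := hH.mono (by norm_num)
  have hSl : MC 1 (DM l S) z := hS.DM (by norm_num)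
  have hHl : MC 1 (DMb l H) z := hH.DMb (by norm_num)
  have e : DMb l (fun y => S y * H y * (S y)ᴴ) =ᶠ[𝓝 z] fun y =>
      S y * DMb l H y * (S y)ᴴ + S y * H y * (DM l S y)ᴴ := by
    filter_upwards [hSh, MC.eventually (q := 1) hH1, MC.eventually (q := 1) hS1] with y h2 h3 h4
    exact DMb_sandwich h4 h3 (h2 l)
  have e2 : DM k (fun y => (DM l S y)ᴴ) z = 0 := by
    rw [DM_conjTranspose (hSl.md one), ← DM_DMb_comm hS]
    have : DMb k S =ᶠ[𝓝 z] fun _ => 0 := by filter_upwards [hSh] with y hy using hy k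
    rw [DM_congr this, DM_const, Matrix.conjTranspose_zero]
  have e3 : DM k (fun y => (S y)ᴴ) z = 0 := by
    rw [DM_conjTranspose (hS1.md one), hSh.self, Matrix.conjTranspose_zero]
  rw [DM_congr e, DM_add (((hS1.mul hHl).mul hS1.conjTranspose).md one)
    (((hS1.mul hH1).mul hSl.conjTranspose).md one), DM_mul ((hS1.mul hHl).md one)
    (hS1.conjTranspose.md one), DM_mul ((hS1.mul hH1).md one) (hSl.conjTranspose.md one),
    DM_mul (hS1.md one) (hHl.md one), DM_mul (hS1.md one) (hH1.md one), e2, e3,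
    nab_conjTranspose (hH1.md one) hHh, nab, RM]
  have hHQ : H z * (H z)⁻¹ = 1 := Matrix.mul_nonsing_inv _ (isUnit_iff_ne_zero.2 h0)
  have hQH : (H z)⁻¹ * H z = 1 := Matrix.nonsing_inv_mul _ (isUnit_iff_ne_zero.2 h0)
  have f2 : ∀ (A : Matrix κ ι ℂ), A * (H z)⁻¹ * H z = A := by
    intro A
    rw [Matrix.mul_assoc, hQH, Matrix.mul_one]
  simp only [Matrix.mul_zero, add_zero, D2, Matrix.add_mul, Matrix.mul_add, Matrix.mul_neg,
    Matrix.neg_mul, f2]
  simp only [← Matrix.mul_assoc]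
  have f3 : DM k S z * H z * (H z)⁻¹ = DM k S z := by rw [Matrix.mul_assoc, hHQ, Matrix.mul_one]
  have f4 : S z * DM k H z * (H z)⁻¹ * H z * (H z)⁻¹ = S z * DM k H z * (H z)⁻¹ := by rw [f2]
  rw [f3]
  abel

omit [DecidableEq ι] [DecidableEq κ] in
/-- the curvature identity for the trace, algebra -/
theorem trace_identity2 {P Gk Gl Gkl : Matrix κ κ ℂ} {S N : Matrix κ ι ℂ} {S' N' : Matrix ι κ ℂ}
    {H R : Matrix ι ι ℂ} :
    (P * Gk * P * Gl * P * (S * H * S') + P * Gl * P * Gk * P * (S * H * S')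
      - P * Gkl * P * (S * H * S') - P * Gl * P * (N * H * S') - P * Gk * P * (S * H * N')
      + P * (N * H * N' - S * R * S')).trace =
    (P * (N - Gk * P * S) * H * (N' - S' * P * Gl)).trace - (P * (S * R * S')).trace +
      (P * (-Gkl + Gk * P * Gl) * P * (S * H * S')).trace := by
  have e1 : P * (N - Gk * P * S) * H * (N' - S' * P * Gl) =
      P * (N * H * N') - (P * (N * H * S')) * (P * Gl) - P * Gk * P * (S * H * N')
        + (P * Gk * P * (S * H * S')) * (P * Gl) := by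
    simp only [Matrix.mul_sub, Matrix.sub_mul, Matrix.mul_assoc]
    abel
  have c1 : ((P * (N * H * S')) * (P * Gl)).trace = (P * Gl * P * (N * H * S')).trace := by
    rw [Matrix.trace_mul_comm]; simp only [Matrix.mul_assoc]
  have c2 : ((P * Gk * P * (S * H * S')) * (P * Gl)).trace =
      (P * Gl * P * Gk * P * (S * H * S')).trace := by
    rw [Matrix.trace_mul_comm]; simp only [Matrix.mul_assoc]
  have e2 : P * (-Gkl + Gk * P * Gl) * P * (S * H * S') =
      -(P * Gkl * P * (S * H * S')) + P * Gk * P * Gl * P * (S * H * S') := by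
    simp only [Matrix.mul_add, Matrix.add_mul, Matrix.mul_neg, Matrix.neg_mul, Matrix.mul_assoc]
  rw [e1, e2]
  simp only [Matrix.trace_add, Matrix.trace_sub, Matrix.trace_neg, Matrix.mul_sub, c1, c2]
  ring

/-- covariant derivative of a section of `T^* ⊗ E`, `T` with metric `G`, `E` with metric `H` -/
def nabG (k : Fin n) (G : Cm n → Matrix κ κ ℂ) (S : Cm n → Matrix κ ι ℂ)
    (H : Cm n → Matrix ι ι ℂ) (z : Cm n) : Matrix κ ι ℂ :=
  nab k S H z - DM k G z * (G z)⁻¹ * S z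

/-- **Bochner identity** for `tr (G⁻¹ S H S*)` -/
theorem D2_trace_inv {G : Cm n → Matrix κ κ ℂ} (hG : MC 2 G z) (hS : MC 2 S z) (hH : MC 2 H z)
    (hSh : HolNear S z) (hGh : ∀ᶠ y in 𝓝 z, (G y).IsHermitian)
    (hHh : ∀ᶠ y in 𝓝 z, (H y).IsHermitian) (g0 : (G z).det ≠ 0) (h0 : (H z).det ≠ 0) :
    dz k (dzb l (fun y => ((G y)⁻¹ * (S y * H y * (S y)ᴴ)).trace)) z =
      ((G z)⁻¹ * nabG k G S H z * H z * (nabG l G S H z)ᴴ).trace
        - ((G z)⁻¹ * (S z * RM k l H z * (S z)ᴴ)).trace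
        + ((G z)⁻¹ * RM k l G z * (G z)⁻¹ * (S z * H z * (S z)ᴴ)).trace := by
  set M : Cm n → Matrix κ κ ℂ := fun y => S y * H y * (S y)ᴴ with hM
  have hM2 : MC 2 M z := (hS.mul hH).mul hS.conjTranspose
  have e : (dzb l (fun y => ((G y)⁻¹ * M y).trace)) =ᶠ[𝓝 z] fun y =>
      (-((G y)⁻¹ * DMb l G y * (G y)⁻¹ * M y) + (G y)⁻¹ * DMb l M y).trace := by
    filter_upwards [MC.eventually (q := 1) (hG.mono (by norm_num)),
      MC.eventually (q := 1) (hM2.mono (by norm_num)),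
      det_ne_zero_eventually (hG.mono (by norm_num)) g0] with y h2 h3 h4
    exact dzb_trace_inv_mul h2 h3 h4
  have hG1 : MC 1 G z := hG.mono (by norm_num)
  have hM1 : MC 1 M z := hM2.mono (by norm_num)
  have hS1 : MC 1 S z := hS.mono (by norm_num)
  have hH1 : MC 1 H z := hH.mono (by norm_num)
  have hGi : MC 1 (fun y => (G y)⁻¹) z := hG1.inv g0
  have hGl : MC 1 (DMb l G) z := hG.DMb (by norm_num)
  have hMl : MC 1 (DMb l M) z := hM2.DMb (by norm_num)
  have t1 : MC 1 (fun y => (G y)⁻¹ * DMb l G y) z := hGi.mul hGl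
  have t2 : MC 1 (fun y => (G y)⁻¹ * DMb l G y * (G y)⁻¹) z := t1.mul hGi
  have t3 : MC 1 (fun y => (G y)⁻¹ * DMb l G y * (G y)⁻¹ * M y) z := t2.mul hM1
  have t4 : MC 1 (fun y => (G y)⁻¹ * DMb l M y) z := hGi.mul hMl
  have one : (1 : WithTop ℕ∞) ≠ 0 := by norm_num
  rw [dz_congr k e, dz_trace ((t3.neg.add t4).md one), DM_add (t3.neg.md one) (t4.md one), DM_neg,
    DM_mul (t2.md one) (hM1.md one), DM_mul (t1.md one) (hGi.md one),
    DM_mul (hGi.md one) (hGl.md one), DM_mul (hGi.md one) (hMl.md one), DM_inv hG1 g0,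
    D2_sandwich hS hH hSh hHh h0, DM_sandwich' hS1 hH1 (hSh.self k) h0,
    DMb_sandwich' hS1 hH1 (hSh.self l) hHh h0]
  have hNl : (nabG l G S H z)ᴴ = (nab l S H z)ᴴ - (S z)ᴴ * (G z)⁻¹ * DMb l G z := by
    have hg := hGh.self_of_nhds
    rw [nabG, Matrix.conjTranspose_sub, Matrix.conjTranspose_mul, Matrix.conjTranspose_mul,
      ← DMb_of_isHermitian (hG1.md one) hGh, Matrix.conjTranspose_nonsing_inv, hg.eq,
      Matrix.mul_assoc]
  have key := trace_identity2 (P := (G z)⁻¹) (Gk := DM k G z) (Gl := DMb l G z)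
    (Gkl := D2 k l G z) (S := S z) (N := nab k S H z) (S' := (S z)ᴴ) (N' := (nab l S H z)ᴴ)
    (H := H z) (R := RM k l H z)
  rw [hNl, nabG, show RM k l G z = -D2 k l G z + DM k G z * (G z)⁻¹ * DMb l G z from rfl, ← key]
  congr 1
  simp only [hM]
  simp only [Matrix.add_mul, Matrix.mul_neg, Matrix.neg_mul, Matrix.mul_assoc]
  abel

end Vale.Agent.P299.H954
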