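import Vale.Agent.P268.Hol
import Vale.Agent.P299.H954.Sandwich
import Vale.Agent.P272.K.INT.Dens

/-!
# `∂̄ F = 0` implies analytic
-/

open scoped Manifold ContDiff ComplexOrder Topology Matrix
open Vale.Agent.P272.K Vale.Agent.P272.K.C2

set_option linter.unusedSectionVars false

noncomputable section

namespace Vale.Agent.P299.H954

variable {n : ℕ}

theorem differentiableAt_of_dzb {F : Cm n → ℂ} {z : Cm n} (hF : DifferentiableAt ℝ F z)
    (h : ∀ l, dzb l F z = 0) : DifferentiableAt ℂ F z := by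
  have hI : ∀ j, fderiv ℝ F z (Pi.single j Complex.I) =
      Complex.I * fderiv ℝ F z (Pi.single j 1) := by
    intro j
    have h1 := h j
    unfold dzb at h1
    have h2 : fderiv ℝ F z (Pi.single j 1) +
        Complex.I * fderiv ℝ F z (Pi.single j Complex.I) = 0 := by
      simpa using h1
    linear_combination (-Complex.I) * h2 + (fderiv ℝ F z (Pi.single j Complex.I)) * Complex.I_mul_I
  rw [differentiableAt_iff_restrictScalars ℝ hF]
  refine ⟨∑ j, (fderiv ℝ F z (Pi.single j 1)) • (ContinuousLinearMap.proj j : Cm n →L[ℂ] ℂ), ?_⟩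
  ext v
  have hv : v = ∑ j, ((v j).re • (Pi.single j (1 : ℂ) : Cm n) +
      (v j).im • (Pi.single j Complex.I : Cm n)) := by
    ext i
    simp only [Finset.sum_apply, Pi.add_apply, Pi.smul_apply]
    rw [Finset.sum_eq_single i]
    · simp only [Pi.single_eq_same, Complex.real_smul, mul_one]
      exact (Complex.re_add_im (v i)).symm
    · intro j _ hj
      simp [Pi.single_eq_of_ne (Ne.symm hj)]
    · simp
  conv_rhs => rw [hv]
  simp only [map_sum, map_add, map_smul, hI]
  simp only [ContinuousLinearMap.coe_restrictScalars', sum_apply, smul_apply,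
    ContinuousLinearMap.proj_apply, smul_eq_mul, Complex.real_smul]
  refine Finset.sum_congr rfl fun j _ => ?_
  conv_lhs => rw [← Complex.re_add_im (v j)]
  ring

theorem analyticAt_of_dzb {F : Cm n → ℂ} {z : Cm n}
    (h : ∀ᶠ y in 𝓝 z, DifferentiableAt ℝ F y ∧ ∀ l, dzb l F y = 0) : AnalyticAt ℂ F z := by
  obtain ⟨U, hU, hUo, hz⟩ := eventually_nhds_iff.1 h
  exact Vale.Agent.P268.analyticAt_of_differentiableOn hUo
    (fun y hy => (differentiableAt_of_dzb (hU y hy).1 (hU y hy).2).differentiableWithinAt) hz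

theorem dzb_of_analyticAt {F : Cm n → ℂ} {z : Cm n} (h : AnalyticAt ℂ F z) :
    ∀ᶠ y in 𝓝 z, ∀ l, dzb l F y = 0 := by
  filter_upwards [h.eventually_analyticAt] with y hy l
  exact INT.dzb_of_holo hy.differentiableAt l

theorem contDiffAt_of_analyticAt {F : Cm n → ℂ} {z : Cm n} {r : WithTop ℕ∞}
    (h : AnalyticAt ℂ F z) : ContDiffAt ℝ r F z :=
  (h.contDiffAt (n := r)).restrict_scalars ℝ

variable {ι κ : Type*} [Fintype ι] [Fintype κ]

theorem holNear_of_analyticAt {S : Cm n → Matrix κ ι ℂ} {z : Cm n}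
    (h : ∀ i j, AnalyticAt ℂ (fun y => S y i j) z) : HolNear S z := by
  have h1 : ∀ᶠ y in 𝓝 z, ∀ i j, ∀ l, dzb l (fun y => S y i j) y = 0 := by
    rw [Filter.eventually_all]; intro i
    rw [Filter.eventually_all]; intro j
    exact dzb_of_analyticAt (h i j)
  filter_upwards [h1] with y hy l
  ext i j
  exact hy i j l

theorem MC_of_analyticAt {S : Cm n → Matrix κ ι ℂ} {z : Cm n} {r : WithTop ℕ∞}
    (h : ∀ i j, AnalyticAt ℂ (fun y => S y i j) z) : MC r S z :=
  fun i j => contDiffAt_of_analyticAt (h i j)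

/-- complex Hessian of a real valued complex function -/
theorem cHess_re {F : Cm n → ℂ} {z : Cm n} (h : ∀ᶠ y in 𝓝 z, (starRingEnd ℂ) (F y) = F y)
    (k l : Fin n) : cHess (fun y => (F y).re) z k l = dz k (dzb l F) z := by
  rw [cHess_apply]
  refine dz_congr k (dzb_eventuallyEq l ?_)
  filter_upwards [h] with y hy
  exact Complex.conj_eq_iff_re.1 hy

theorem trace_mul_cHess {A : Matrix (Fin n) (Fin n) ℂ} {f : Cm n → ℝ} {z : Cm n} :
    (A * cHess f z).trace = ∑ l, ∑ k, A l k * cHess f z k l := by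
  rw [Matrix.trace]
  refine Finset.sum_congr rfl fun l _ => ?_
  rw [Matrix.diag_apply, Matrix.mul_apply]

end Vale.Agent.P299.H954
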