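import Vale.Agent.P272.K.C2.PosLin

/-!
# Positivity of the gradient term, with the equality case
-/

open scoped ComplexOrder Matrix
open Vale.Agent.P272.K.C2

noncomputable section

namespace Vale.Agent.P299.H954

variable {ι κ ν : Type*} [Fintype ι] [DecidableEq ι] [Fintype κ] [DecidableEq κ] [Fintype ν]

theorem sum_trace_eq {R : Matrix ν ν ℂ} (A : Matrix κ κ ℂ) (B : Matrix ι ι ℂ)
    (C : ν → Matrix κ ι ℂ) :
    ∑ l, ∑ k, R l k * ((Aᴴ * A) * C k * (Bᴴ * B) * (C l)ᴴ).trace =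
      ∑ a, ∑ b, (star (fun l => (A * C l * Bᴴ) a b) ⬝ᵥ (R *ᵥ fun k => (A * C k * Bᴴ) a b)) := by
  set Y : ν → Matrix κ ι ℂ := fun k => A * C k * Bᴴ with hY
  have e1 : ∀ k l, ((Aᴴ * A) * C k * (Bᴴ * B) * (C l)ᴴ).trace =
      ∑ a, ∑ b, Y k a b * (starRingEnd ℂ) (Y l a b) := by
    intro k l
    have : ((Aᴴ * A) * C k * (Bᴴ * B) * (C l)ᴴ).trace = (Y k * (Y l)ᴴ).trace := by
      have h1 : (Aᴴ * A) * C k * (Bᴴ * B) * (C l)ᴴ = Aᴴ * (A * C k * (Bᴴ * B) * (C l)ᴴ) := by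
        simp only [Matrix.mul_assoc]
      rw [h1, Matrix.trace_mul_comm, hY]
      simp only [Matrix.conjTranspose_mul, Matrix.conjTranspose_conjTranspose, Matrix.mul_assoc]
    rw [this, Matrix.trace]
    refine Finset.sum_congr rfl fun a _ => ?_
    rw [Matrix.diag_apply, Matrix.mul_apply]
    rfl
  simp only [e1, dotProduct, Matrix.mulVec, Pi.star_apply, Finset.mul_sum]
  calc ∑ l, ∑ k, ∑ a, ∑ b, R l k * (Y k a b * (starRingEnd ℂ) (Y l a b))
      = ∑ l, ∑ a, ∑ k, ∑ b, R l k * (Y k a b * (starRingEnd ℂ) (Y l a b)) :=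
        Finset.sum_congr rfl fun l _ => Finset.sum_comm
    _ = ∑ a, ∑ l, ∑ k, ∑ b, R l k * (Y k a b * (starRingEnd ℂ) (Y l a b)) := Finset.sum_comm
    _ = ∑ a, ∑ l, ∑ b, ∑ k, R l k * (Y k a b * (starRingEnd ℂ) (Y l a b)) :=
        Finset.sum_congr rfl fun a _ => Finset.sum_congr rfl fun l _ => Finset.sum_comm
    _ = ∑ a, ∑ b, ∑ l, ∑ k, R l k * (Y k a b * (starRingEnd ℂ) (Y l a b)) :=
        Finset.sum_congr rfl fun a _ => Finset.sum_comm
    _ = _ := by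
        refine Finset.sum_congr rfl fun a _ => Finset.sum_congr rfl fun b _ =>
          Finset.sum_congr rfl fun l _ => Finset.sum_congr rfl fun k _ => ?_
        show _ = star (Y l a b) * (R l k * Y k a b)
        rw [show star (Y l a b) = (starRingEnd ℂ) (Y l a b) from rfl]
        ring

theorem sum_trace_nonneg' {R : Matrix ν ν ℂ} {P : Matrix κ κ ℂ} {Q : Matrix ι ι ℂ}
    (hR : R.PosSemidef) (hP : P.PosSemidef) (hQ : Q.PosSemidef) (C : ν → Matrix κ ι ℂ) :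
    0 ≤ ∑ l, ∑ k, R l k * (P * C k * Q * (C l)ᴴ).trace := by
  obtain ⟨A, rfl⟩ := exists_factor hP
  obtain ⟨B, rfl⟩ := exists_factor hQ
  rw [sum_trace_eq]
  exact Finset.sum_nonneg fun a _ => Finset.sum_nonneg fun b _ => hR.dotProduct_mulVec_nonneg _

theorem det_ne_zero_of_factor {A B : Matrix ι ι ℂ} (hA : A.PosDef) (h : A = Bᴴ * B) :
    B.det ≠ 0 := by
  intro h0
  have := hA.det_pos
  rw [h, Matrix.det_mul, h0, mul_zero] at this
  exact lt_irrefl _ this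

theorem eq_zero_of_sum_trace {R : Matrix ν ν ℂ} {P : Matrix κ κ ℂ} {Q : Matrix ι ι ℂ}
    (hR : R.PosDef) (hP : P.PosDef) (hQ : Q.PosDef) (C : ν → Matrix κ ι ℂ)
    (h : ∑ l, ∑ k, R l k * (P * C k * Q * (C l)ᴴ).trace = 0) (k : ν) : C k = 0 := by
  obtain ⟨A, hA⟩ := exists_factor hP.posSemidef
  obtain ⟨B, hB⟩ := exists_factor hQ.posSemidef
  have hAu : IsUnit A.det := isUnit_iff_ne_zero.2 (det_ne_zero_of_factor hP hA)
  have hBu : IsUnit (Bᴴ).det := by
    rw [Matrix.det_conjTranspose]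
    exact (isUnit_iff_ne_zero.2 (det_ne_zero_of_factor hQ hB)).star
  rw [hA, hB, sum_trace_eq] at h
  have nn : ∀ a b, 0 ≤ (star (fun l => (A * C l * Bᴴ) a b) ⬝ᵥ (R *ᵥ fun k => (A * C k * Bᴴ) a b)) :=
    fun a b => hR.posSemidef.dotProduct_mulVec_nonneg _
  have h1 := (Finset.sum_eq_zero_iff_of_nonneg fun a _ => Finset.sum_nonneg fun b _ => nn a b).1 h
  have h2 : ∀ a b, (fun k => (A * C k * Bᴴ) a b) = 0 := by
    intro a b
    have h3 := (Finset.sum_eq_zero_iff_of_nonneg fun b _ => nn a b).1 (h1 a (Finset.mem_univ a)) b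
      (Finset.mem_univ b)
    by_contra hne
    exact (hR.dotProduct_mulVec_pos hne).ne' h3
  have h4 : A * C k * Bᴴ = 0 := by
    ext a b
    exact congrFun (h2 a b) k
  have h5 : A * C k = 0 := by
    have := congrArg (· * (Bᴴ)⁻¹) h4
    simpa [Matrix.mul_assoc, Matrix.mul_nonsing_inv _ hBu] using this
  have := congrArg (A⁻¹ * ·) h5
  simpa [← Matrix.mul_assoc, Matrix.nonsing_inv_mul _ hAu] using this

/-- `tr (A B) = 0` for positive semidefinite matrices forces `A B = 0` -/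
theorem mul_eq_zero_of_trace {A B : Matrix ι ι ℂ} (hA : A.PosSemidef) (hB : B.PosSemidef)
    (h : (A * B).trace = 0) : A * B = 0 := by
  obtain ⟨C, rfl⟩ := exists_factor hA
  obtain ⟨D, rfl⟩ := exists_factor hB
  have h1 : ((C * Dᴴ)ᴴ * (C * Dᴴ)).trace = 0 := by
    have : ((Cᴴ * C) * (Dᴴ * D)).trace = ((C * Dᴴ)ᴴ * (C * Dᴴ)).trace := by
      rw [Matrix.conjTranspose_mul, Matrix.conjTranspose_conjTranspose]
      have e : Cᴴ * C * (Dᴴ * D) = (Cᴴ * C * Dᴴ) * D := by simp only [Matrix.mul_assoc]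
      rw [e, Matrix.trace_mul_comm]
      simp only [Matrix.mul_assoc]
    rw [← this, h]
  have h2 : C * Dᴴ = 0 := Matrix.trace_conjTranspose_mul_self_eq_zero_iff.1 h1
  have e : Cᴴ * C * (Dᴴ * D) = Cᴴ * (C * Dᴴ) * D := by simp only [Matrix.mul_assoc]
  rw [e, h2, Matrix.mul_zero, Matrix.zero_mul]

end Vale.Agent.P299.H954
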