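import Vale.Agent.P299.H954.Sandwich
import Vale.Agent.P299.H954.PosSum

/-!
# The metric on covariant tensors and its curvature
-/

open scoped Manifold ContDiff ComplexOrder Topology Matrix Kronecker
open Vale.Agent.P272.K Vale.Agent.P272.K.C2

set_option linter.unusedSectionVars false

noncomputable section

namespace Vale.Agent.P299.H954

section tp

variable {m : Type*}

/-- the `p`-th tensor power of a matrix -/
def tp (p : ℕ) (A : Matrix m m ℂ) : Matrix (Fin p → m) (Fin p → m) ℂ :=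
  Matrix.of fun I J => ∏ a, A (I a) (J a)

@[simp] theorem tp_apply (p : ℕ) (A : Matrix m m ℂ) (I J : Fin p → m) :
    tp p A I J = ∏ a, A (I a) (J a) := rfl

theorem tp_mul [Fintype m] [DecidableEq m] (p : ℕ) (A B : Matrix m m ℂ) :
    tp p (A * B) = tp p A * tp p B := by
  ext I J
  rw [tp_apply, Matrix.mul_apply]
  simp only [Matrix.mul_apply, tp_apply]
  rw [Finset.prod_univ_sum, Fintype.piFinset_univ]
  exact Finset.sum_congr rfl fun K _ => Finset.prod_mul_distrib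

theorem tp_one [DecidableEq m] (p : ℕ) : tp p (1 : Matrix m m ℂ) = 1 := by
  ext I J
  rw [tp_apply]
  by_cases h : I = J
  · subst h
    simp
  · rw [Matrix.one_apply_ne h]
    obtain ⟨a, ha⟩ := Function.ne_iff.1 h
    exact Finset.prod_eq_zero (Finset.mem_univ a) (Matrix.one_apply_ne ha)

theorem tp_conjTranspose (p : ℕ) (A : Matrix m m ℂ) : tp p Aᴴ = (tp p A)ᴴ := by
  ext I J
  simp [Matrix.conjTranspose_apply]

theorem tp_transpose (p : ℕ) (A : Matrix m m ℂ) : tp p Aᵀ = (tp p A)ᵀ := by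
  ext I J
  simp

theorem tp_inv [Fintype m] [DecidableEq m] (p : ℕ) {A : Matrix m m ℂ} (hA : IsUnit A.det) :
    tp p A⁻¹ = (tp p A)⁻¹ := by
  symm
  apply Matrix.inv_eq_right_inv
  rw [← tp_mul, Matrix.mul_nonsing_inv _ hA, tp_one]

theorem tp_isUnit [Fintype m] [DecidableEq m] (p : ℕ) {A : Matrix m m ℂ} (hA : IsUnit A.det) :
    IsUnit (tp p A) := by
  have h1 : tp p A * tp p A⁻¹ = 1 := by
    rw [← tp_mul, Matrix.mul_nonsing_inv _ hA, tp_one]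
  have h2 : tp p A⁻¹ * tp p A = 1 := by
    rw [← tp_mul, Matrix.nonsing_inv_mul _ hA, tp_one]
  exact ⟨⟨_, _, h1, h2⟩, rfl⟩

theorem tp_posDef [Fintype m] [DecidableEq m] (p : ℕ) {A : Matrix m m ℂ} (hA : A.PosDef) :
    (tp p A).PosDef := by
  obtain ⟨B, hB⟩ := exists_factor hA.posSemidef
  have hBu : IsUnit B.det := isUnit_iff_ne_zero.2 (det_ne_zero_of_factor hA hB)
  have h1 : tp p A = (tp p B)ᴴ * tp p B := by
    rw [← tp_conjTranspose, ← tp_mul, ← hB]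
  have h2 : (tp p A).PosSemidef := by
    rw [h1]; exact Matrix.posSemidef_conjTranspose_mul_self _
  exact h2.posDef_iff_isUnit.2 (tp_isUnit p (isUnit_iff_ne_zero.2 hA.det_pos.ne'))

/-- `(Fin (p+1) → m) ≃ m × (Fin p → m)` -/
def consE (m : Type*) (p : ℕ) : (Fin (p + 1) → m) ≃ m × (Fin p → m) :=
  (Fin.consEquiv fun _ => m).symm

@[simp] theorem consE_apply (p : ℕ) (I : Fin (p + 1) → m) :
    consE m p I = (I 0, fun a => I a.succ) := rfl

@[simp] theorem consE_symm_apply (p : ℕ) (x : m × (Fin p → m)) :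
    (consE m p).symm x = Fin.cons x.1 x.2 := rfl

theorem tp_succ (p : ℕ) (A : Matrix m m ℂ) :
    tp (p + 1) A = (A ⊗ₖ tp p A).submatrix (consE m p) (consE m p) := by
  ext I J
  rw [tp_apply, Fin.prod_univ_succ]
  rfl

end tp

section curv

variable {n : ℕ} {ι κ : Type*} [Fintype ι] [DecidableEq ι] [Fintype κ] [DecidableEq κ]
  {z : Cm n} {k l : Fin n}

theorem MC_kronecker {r : WithTop ℕ∞} {H₁ : Cm n → Matrix ι ι ℂ} {H₂ : Cm n → Matrix κ κ ℂ}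
    (h1 : MC r H₁ z) (h2 : MC r H₂ z) : MC r (fun y => H₁ y ⊗ₖ H₂ y) z :=
  fun i j => (h1 i.1 j.1).mul (h2 i.2 j.2)

theorem DM_kronecker {H₁ : Cm n → Matrix ι ι ℂ} {H₂ : Cm n → Matrix κ κ ℂ}
    (h1 : MD H₁ z) (h2 : MD H₂ z) :
    DM k (fun y => H₁ y ⊗ₖ H₂ y) z = DM k H₁ z ⊗ₖ H₂ z + H₁ z ⊗ₖ DM k H₂ z := by
  ext i j
  exact dz_mul k (h1 i.1 j.1) (h2 i.2 j.2)

theorem DMb_kronecker {H₁ : Cm n → Matrix ι ι ℂ} {H₂ : Cm n → Matrix κ κ ℂ}
    (h1 : MD H₁ z) (h2 : MD H₂ z) :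
    DMb k (fun y => H₁ y ⊗ₖ H₂ y) z = DMb k H₁ z ⊗ₖ H₂ z + H₁ z ⊗ₖ DMb k H₂ z := by
  ext i j
  exact dzb_mul k (h1 i.1 j.1) (h2 i.2 j.2)

theorem RM_kronecker {H₁ : Cm n → Matrix ι ι ℂ} {H₂ : Cm n → Matrix κ κ ℂ}
    (h1 : MC 2 H₁ z) (h2 : MC 2 H₂ z) (d1 : (H₁ z).det ≠ 0) (d2 : (H₂ z).det ≠ 0) :
    RM k l (fun y => H₁ y ⊗ₖ H₂ y) z = RM k l H₁ z ⊗ₖ H₂ z + H₁ z ⊗ₖ RM k l H₂ z := by
  have one := one_ne_zero_inf
  have a1 : MC 1 H₁ z := h1.mono (by norm_num)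
  have a2 : MC 1 H₂ z := h2.mono (by norm_num)
  have b1 : MC 1 (DMb l H₁) z := h1.DMb (by norm_num)
  have b2 : MC 1 (DMb l H₂) z := h2.DMb (by norm_num)
  have e : DMb l (fun y => H₁ y ⊗ₖ H₂ y) =ᶠ[𝓝 z] fun y =>
      DMb l H₁ y ⊗ₖ H₂ y + H₁ y ⊗ₖ DMb l H₂ y := by
    filter_upwards [MC.eventually (q := 1) a1, MC.eventually (q := 1) a2] with y c1 c2
    exact DMb_kronecker (c1.md one) (c2.md one)
  have hd : D2 k l (fun y => H₁ y ⊗ₖ H₂ y) z = D2 k l H₁ z ⊗ₖ H₂ z + DMb l H₁ z ⊗ₖ DM k H₂ z +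
      (DM k H₁ z ⊗ₖ DMb l H₂ z + H₁ z ⊗ₖ D2 k l H₂ z) := by
    rw [D2, DM_congr e, DM_add ((MC_kronecker b1 a2).md one) ((MC_kronecker a1 b2).md one),
      DM_kronecker (b1.md one) (a2.md one), DM_kronecker (a1.md one) (b2.md one)]
  have i1 : H₁ z * (H₁ z)⁻¹ = 1 := Matrix.mul_nonsing_inv _ (isUnit_iff_ne_zero.2 d1)
  have i1' : (H₁ z)⁻¹ * H₁ z = 1 := Matrix.nonsing_inv_mul _ (isUnit_iff_ne_zero.2 d1)
  have i2 : H₂ z * (H₂ z)⁻¹ = 1 := Matrix.mul_nonsing_inv _ (isUnit_iff_ne_zero.2 d2)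
  have i2' : (H₂ z)⁻¹ * H₂ z = 1 := Matrix.nonsing_inv_mul _ (isUnit_iff_ne_zero.2 d2)
  have hinv : (H₁ z ⊗ₖ H₂ z)⁻¹ = (H₁ z)⁻¹ ⊗ₖ (H₂ z)⁻¹ := by
    apply Matrix.inv_eq_right_inv
    rw [← Matrix.mul_kronecker_mul, i1, i2, Matrix.one_kronecker_one]
  rw [RM, hd, DM_kronecker (a1.md one) (a2.md one), DMb_kronecker (a1.md one) (a2.md one), hinv]
  simp only [Matrix.add_mul, Matrix.mul_add, ← Matrix.mul_kronecker_mul, RM]
  have j1 : H₁ z * (H₁ z)⁻¹ * DMb l H₁ z = DMb l H₁ z := by rw [i1, Matrix.one_mul]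
  have j2 : H₂ z * (H₂ z)⁻¹ * DMb l H₂ z = DMb l H₂ z := by rw [i2, Matrix.one_mul]
  have j3 : DM k H₁ z * (H₁ z)⁻¹ * H₁ z = DM k H₁ z := by rw [Matrix.mul_assoc, i1', Matrix.mul_one]
  have j4 : DM k H₂ z * (H₂ z)⁻¹ * H₂ z = DM k H₂ z := by rw [Matrix.mul_assoc, i2', Matrix.mul_one]
  have j5 : H₁ z * (H₁ z)⁻¹ * H₁ z = H₁ z := by rw [i1, Matrix.one_mul]
  have j6 : H₂ z * (H₂ z)⁻¹ * H₂ z = H₂ z := by rw [i2, Matrix.one_mul]
  rw [j1, j2, j3, j4, j5, j6]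
  ext ⟨a, b⟩ ⟨c, d⟩
  simp only [Matrix.add_apply, Matrix.neg_apply, Matrix.kroneckerMap_apply]
  ring

theorem RM_submatrix {H : Cm n → Matrix ι ι ℂ} (e : κ ≃ ι) :
    RM k l (fun y => (H y).submatrix e e) z = (RM k l H z).submatrix e e := by
  have h1 : D2 k l (fun y => (H y).submatrix e e) z = (D2 k l H z).submatrix e e := rfl
  have h2 : DM k (fun y => (H y).submatrix e e) z = (DM k H z).submatrix e e := rfl
  have h3 : DMb l (fun y => (H y).submatrix e e) z = (DMb l H z).submatrix e e := rfl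
  rw [RM, h1, h2, h3, Matrix.inv_submatrix_equiv, Matrix.submatrix_mul_equiv,
    Matrix.submatrix_mul_equiv, RM]
  rfl

theorem RM_const (A : Matrix ι ι ℂ) : RM k l (fun _ : Cm n => A) z = 0 := by
  have h1 : DMb l (fun _ : Cm n => A) = fun _ => 0 := by ext1 y; exact DMb_const A
  rw [RM, D2, h1, DM_const]
  simp

/-- the dual metric -/
def dual (G : Cm n → Matrix ι ι ℂ) (y : Cm n) : Matrix ι ι ℂ := ((G y)⁻¹)ᵀ

theorem MC_transpose {r : WithTop ℕ∞} {G : Cm n → Matrix ι ι ℂ} (h : MC r G z) :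
    MC r (fun y => (G y)ᵀ) z := fun i j => h j i

theorem MC_dual {r : WithTop ℕ∞} {G : Cm n → Matrix ι ι ℂ} (h : MC r G z) (g0 : (G z).det ≠ 0) :
    MC r (dual G) z := MC_transpose (h.inv g0)

theorem D2_inv {G : Cm n → Matrix ι ι ℂ} (hG : MC 2 G z) (g0 : (G z).det ≠ 0) :
    D2 k l (fun y => (G y)⁻¹) z =
      (G z)⁻¹ * DM k G z * (G z)⁻¹ * DMb l G z * (G z)⁻¹ - (G z)⁻¹ * D2 k l G z * (G z)⁻¹ +
        (G z)⁻¹ * DMb l G z * (G z)⁻¹ * DM k G z * (G z)⁻¹ := by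
  have one := one_ne_zero_inf
  have hG1 : MC 1 G z := hG.mono (by norm_num)
  have hGi : MC 1 (fun y => (G y)⁻¹) z := hG1.inv g0
  have hGl : MC 1 (DMb l G) z := hG.DMb (by norm_num)
  have e : DMb l (fun y => (G y)⁻¹) =ᶠ[𝓝 z] fun y => -((G y)⁻¹ * DMb l G y * (G y)⁻¹) := by
    filter_upwards [MC.eventually (q := 1) hG1,
      det_ne_zero_eventually (hG.mono (by norm_num)) g0] with y c1 c2
    exact DMb_inv c1 c2
  rw [D2, DM_congr e, DM_neg, DM_mul ((hGi.mul hGl).md one) (hGi.md one),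
    DM_mul (hGi.md one) (hGl.md one), DM_inv hG1 g0]
  simp only [Matrix.add_mul, Matrix.mul_neg, Matrix.neg_mul, Matrix.mul_assoc]
  abel

theorem RM_dual {G : Cm n → Matrix ι ι ℂ} (hG : MC 2 G z) (g0 : (G z).det ≠ 0) :
    RM k l (dual G) z = -((G z)⁻¹ * RM k l G z * (G z)⁻¹)ᵀ := by
  have hG1 : MC 1 G z := hG.mono (by norm_num)
  have h1 : D2 k l (dual G) z = (D2 k l (fun y => (G y)⁻¹) z)ᵀ := rfl
  have h2 : DM k (dual G) z = (DM k (fun y => (G y)⁻¹) z)ᵀ := rfl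
  have h3 : DMb l (dual G) z = (DMb l (fun y => (G y)⁻¹) z)ᵀ := rfl
  have i1 : (G z)⁻¹ * G z = 1 := Matrix.nonsing_inv_mul _ (isUnit_iff_ne_zero.2 g0)
  have i2 : G z * (G z)⁻¹ = 1 := Matrix.mul_nonsing_inv _ (isUnit_iff_ne_zero.2 g0)
  have h4 : (dual G z)⁻¹ = (G z)ᵀ := by
    apply Matrix.inv_eq_right_inv
    rw [dual, ← Matrix.transpose_mul, i2, Matrix.transpose_one]
  rw [RM, h1, h2, h3, h4, D2_inv hG g0, DM_inv hG1 g0, DMb_inv hG1 g0,
    ← Matrix.transpose_mul, ← Matrix.transpose_mul, ← Matrix.transpose_neg, ← Matrix.transpose_add,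
    ← Matrix.transpose_neg]
  congr 1
  rw [RM]
  have e1 : -((G z)⁻¹ * DMb l G z * (G z)⁻¹) * (G z * -((G z)⁻¹ * DM k G z * (G z)⁻¹)) =
      (G z)⁻¹ * DMb l G z * (G z)⁻¹ * DM k G z * (G z)⁻¹ := by
    have : G z * -((G z)⁻¹ * DM k G z * (G z)⁻¹) = -(DM k G z * (G z)⁻¹) := by
      rw [Matrix.mul_neg, ← Matrix.mul_assoc, ← Matrix.mul_assoc, i2, Matrix.one_mul]
    rw [this]
    simp only [Matrix.mul_neg, Matrix.neg_mul, Matrix.mul_assoc, neg_neg]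
  rw [e1]
  simp only [Matrix.add_mul, Matrix.mul_add, Matrix.mul_neg, Matrix.neg_mul, Matrix.mul_assoc]
  abel

/-- trace of the curvature with respect to `G` -/
def RmS (G : Cm n → Matrix (Fin n) (Fin n) ℂ) (H : Cm n → Matrix ι ι ℂ) (z : Cm n) :
    Matrix ι ι ℂ := ∑ l, ∑ k, (G z)⁻¹ l k • RM k l H z

/-- the Ricci form of the Kähler metric `G` -/
def ric (G : Cm n → Matrix (Fin n) (Fin n) ℂ) (z : Cm n) : Matrix (Fin n) (Fin n) ℂ :=
  -cHess (fun y => Real.log (G y).det.re) z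

variable {G : Cm n → Matrix (Fin n) (Fin n) ℂ}

theorem RmS_self (hG : MC 2 G z) (hpos : ∀ᶠ y in 𝓝 z, (G y).PosDef)
    (hK : ∀ᶠ y in 𝓝 z, ∀ i j k, dz k (fun y => G y i j) y = dz i (fun y => G y k j) y) :
    RmS G G z = ric G z := ricci_identity hG hpos hK

theorem RmS_kronecker {H₁ : Cm n → Matrix ι ι ℂ} {H₂ : Cm n → Matrix κ κ ℂ}
    (h1 : MC 2 H₁ z) (h2 : MC 2 H₂ z) (d1 : (H₁ z).det ≠ 0) (d2 : (H₂ z).det ≠ 0) :
    RmS G (fun y => H₁ y ⊗ₖ H₂ y) z = RmS G H₁ z ⊗ₖ H₂ z + H₁ z ⊗ₖ RmS G H₂ z := by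
  unfold RmS
  ext ⟨a, b⟩ ⟨c, d⟩
  simp only [Matrix.add_apply, Matrix.kroneckerMap_apply, Matrix.sum_apply, Matrix.smul_apply,
    smul_eq_mul, Finset.sum_mul, Finset.mul_sum, ← Finset.sum_add_distrib]
  refine Finset.sum_congr rfl fun l _ => Finset.sum_congr rfl fun k _ => ?_
  rw [RM_kronecker h1 h2 d1 d2]
  simp only [Matrix.add_apply, Matrix.kroneckerMap_apply]
  ring

theorem RmS_submatrix {H : Cm n → Matrix ι ι ℂ} (e : κ ≃ ι) :
    RmS G (fun y => (H y).submatrix e e) z = (RmS G H z).submatrix e e := by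
  unfold RmS
  ext a b
  simp only [Matrix.sum_apply, Matrix.smul_apply, RM_submatrix, Matrix.submatrix_apply]

theorem RmS_dual {H : Cm n → Matrix ι ι ℂ} (hH : MC 2 H z) (h0 : (H z).det ≠ 0) :
    RmS G (dual H) z = -((H z)⁻¹ * RmS G H z * (H z)⁻¹)ᵀ := by
  unfold RmS
  simp only [RM_dual hH h0, Matrix.mul_sum, Matrix.sum_mul, Matrix.mul_smul, Matrix.smul_mul,
    Matrix.transpose_sum, Matrix.transpose_smul, smul_neg, Finset.sum_neg_distrib]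

theorem RmS_const (A : Matrix ι ι ℂ) : RmS G (fun _ => A) z = 0 := by
  unfold RmS
  simp [RM_const]

theorem MC_tp {r : WithTop ℕ∞} (p : ℕ) {H : Cm n → Matrix ι ι ℂ} (hH : MC r H z) :
    MC r (fun y => tp p (H y)) z := by
  intro I J
  show ContDiffAt ℝ r (fun y => ∏ a, H y (I a) (J a)) z
  exact contDiffAt_prod fun a _ => hH (I a) (J a)

theorem tp_zero_eq {m : Type*} [DecidableEq m] (A : Matrix m m ℂ) : tp 0 A = 1 := by
  ext I J
  rw [Subsingleton.elim I J]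
  simp

theorem neg_RmS_tp (p : ℕ) {H : Cm n → Matrix ι ι ℂ} (hH : MC 2 H z) (hp : (H z).PosDef)
    (hc : (-RmS G H z).PosSemidef) : (-RmS G (fun y => tp p (H y)) z).PosSemidef := by
  induction p with
  | zero =>
    have : (fun y => tp 0 (H y)) = fun _ => 1 := by ext1 y; exact tp_zero_eq _
    rw [this, RmS_const, neg_zero]
    exact Matrix.PosSemidef.zero
  | succ p ih =>
    have e : (fun y => tp (p + 1) (H y)) =
        fun y => (H y ⊗ₖ tp p (H y)).submatrix (consE ι p) (consE ι p) := by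
      ext1 y; exact tp_succ p _
    rw [e, RmS_submatrix, RmS_kronecker hH (MC_tp p hH) hp.det_pos.ne' (tp_posDef p hp).det_pos.ne']
    have e2 : -(RmS G H z ⊗ₖ tp p (H z) + H z ⊗ₖ RmS G (fun y => tp p (H y)) z) =
        (-RmS G H z) ⊗ₖ tp p (H z) + H z ⊗ₖ (-RmS G (fun y => tp p (H y)) z) := by
      ext ⟨a, b⟩ ⟨c, d⟩
      simp only [Matrix.add_apply, Matrix.neg_apply, Matrix.kroneckerMap_apply]
      ring
    have e3 : ∀ (A : Matrix (ι × (Fin p → ι)) (ι × (Fin p → ι)) ℂ),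
        -(A.submatrix (consE ι p) (consE ι p)) = (-A).submatrix (consE ι p) (consE ι p) :=
      fun _ => rfl
    rw [e3, e2]
    refine Matrix.PosSemidef.submatrix ?_ _
    exact (hc.kronecker (tp_posDef p hp).posSemidef).add (hp.posSemidef.kronecker ih)

theorem neg_RmS_dual_posSemidef (hG : MC 2 G z) (hpos : ∀ᶠ y in 𝓝 z, (G y).PosDef)
    (hK : ∀ᶠ y in 𝓝 z, ∀ i j k, dz k (fun y => G y i j) y = dz i (fun y => G y k j) y)
    (hric : (ric G z).PosSemidef) : (-RmS G (dual G) z).PosSemidef := by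
  have hg := hpos.self_of_nhds
  rw [RmS_dual hG hg.det_pos.ne', RmS_self hG hpos hK, neg_neg]
  apply Matrix.PosSemidef.transpose
  have := hric.mul_mul_conjTranspose_same (G z)⁻¹
  rwa [Matrix.conjTranspose_nonsing_inv, hg.isHermitian.eq] at this

end curv

end Vale.Agent.P299.H954
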