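import Vale.Agent.P299.H723.D.Stmt
import Vale.Agent.P299.H954.Tensor
import Vale.Agent.P299.H954.Holo
import Vale.Agent.P299.H954.Zero

/-!
# D4 (b1): holomorphic vector fields on a compact Ricci flat Kähler manifold are parallel
-/

open scoped Manifold ContDiff ComplexOrder Topology Matrix
open Vale.Agent.P272.K Vale.Agent.P272.K.C2 Vale.Agent.P272.K.AMP

set_option linter.unusedSectionVars false

noncomputable section

namespace Vale.Agent.P299.H954

section aux

variable {n : ℕ} {X : Type*} [TopologicalSpace X] [ChartedSpace (Cm n) X]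
  {w : D.FormM n X} {e : Chart n X} {x : X}

theorem IsHermitian.MC (hw : IsHermitian w) (hx : At e x) : MC 2 (w e) (e x) :=
  fun i j => (hw.smooth e x hx i j).of_le (by norm_cast)

theorem eventually_at (hx : At e x) : ∀ᶠ z in 𝓝 (e x), At e (e.symm z) ∧ e (e.symm z) = z := by
  filter_upwards [hx.nhds_target] with z hz
  exact ⟨At.of_target hx.1 hz, e.right_inv hz⟩

theorem IsHermitian.ev_posDef (hw : IsHermitian w) (hx : At e x) :
    ∀ᶠ z in 𝓝 (e x), (w e z).PosDef := by
  filter_upwards [eventually_at hx] with z hz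
  have := hw.posDef e _ hz.1
  rwa [hz.2] at this

theorem IsHermitian.ev_herm (hw : IsHermitian w) (hx : At e x) :
    ∀ᶠ z in 𝓝 (e x), (w e z).IsHermitian := by
  filter_upwards [IsHermitian.ev_posDef hw hx] with z hz using hz.isHermitian

theorem IsKahler.ev_closed (hw : IsKahler w) (hx : At e x) :
    ∀ᶠ z in 𝓝 (e x), ∀ i j k, dz k (fun y => w e y i j) z = dz i (fun y => w e y k j) z := by
  filter_upwards [eventually_at hx] with z hz
  intro i j k
  have := hw.closed e _ hz.1 i j k
  rwa [hz.2] at this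

theorem RmS_self' (hw : IsKahler w) (hx : At e x) :
    RmS (w e) (w e) (e x) = D.ric w e (e x) :=
  ricci_identity (IsHermitian.MC hw.toIsHermitian hx) (IsHermitian.ev_posDef hw.toIsHermitian hx)
    (IsKahler.ev_closed hw hx)

theorem posSemidef_of_ric_nonneg (hw : IsKahler w) (hric : D.RicNonneg w) (hx : At e x) :
    (-RmS (w e) (dual (w e)) (e x)).PosSemidef := by
  have := neg_RmS_dual_posSemidef (z := e x) (G := w e) (IsHermitian.MC hw.toIsHermitian hx)
    (IsHermitian.ev_posDef hw.toIsHermitian hx) (IsKahler.ev_closed hw hx) (hric e x hx)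
  exact this

end aux

section vf

variable {n : ℕ} {X : Type*} [TopologicalSpace X] [ChartedSpace (Cm n) X]
  {w : D.FormM n X} {v : D.VField n X} {e : Chart n X} {x : X}

/-- the field as a row matrix -/
def rowV (v : D.VField n X) (e : Chart n X) (z : Cm n) : Matrix Unit (Fin n) ℂ :=
  Matrix.of fun _ i => v e z i

theorem rowV_analytic (hv : D.IsHolVF v) (hx : At e x) (i : Unit) (j : Fin n) :
    AnalyticAt ℂ (fun z => rowV v e z i j) (e x) :=
  ((ContinuousLinearMap.proj (R := ℂ) (φ := fun _ : Fin n => ℂ) j).analyticAt _).comp (hv.holo e x hx)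

/-- `|v|²` -/
def sqV (w : D.FormM n X) (v : D.VField n X) (e : Chart n X) (z : Cm n) : ℂ :=
  (rowV v e z * w e z * (rowV v e z)ᴴ).trace

theorem sqV_conj (hw : (w e (e x)).IsHermitian) :
    (starRingEnd ℂ) (sqV w v e (e x)) = sqV w v e (e x) := by
  show star _ = _
  rw [sqV, ← Matrix.trace_conjTranspose]
  congr 1
  simp only [Matrix.conjTranspose_mul, Matrix.conjTranspose_conjTranspose, hw.eq, Matrix.mul_assoc]

theorem rowV_change [IsManifold 𝓘(ℂ, Cm n) ω X] (hv : D.IsHolVF v) {e' : Chart n X} (hx : At e x)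
    (hx' : At e' x) : rowV v e' (e' x) = rowV v e (e x) * (jacM e e' x)ᵀ := by
  ext i j
  have := congrFun (hv.change e e' x hx hx') j
  show v e' (e' x) j = _
  rw [this, Matrix.mul_apply]
  simp only [Matrix.mulVec, dotProduct, rowV, Matrix.of_apply, Matrix.transpose_apply]
  exact Finset.sum_congr rfl fun _ _ => mul_comm _ _

theorem sqV_change [IsManifold 𝓘(ℂ, Cm n) ω X] (hw : IsHermitian w) (hv : D.IsHolVF v)
    {e' : Chart n X} (hx : At e x) (hx' : At e' x) : sqV w v e (e x) = sqV w v e' (e' x) := by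
  unfold sqV
  rw [rowV_change hv hx hx', hw.change e e' x hx hx']
  congr 1
  rw [Matrix.conjTranspose_mul]
  have : (jacM e e' x)ᵀᴴ = (jacM e e' x).map (starRingEnd ℂ) := rfl
  rw [this]
  simp only [Matrix.mul_assoc]

variable [IsManifold 𝓘(ℂ, Cm n) ω X] [T2Space X] [CompactSpace X]

theorem smooth_sqV (hw : IsKahler w) (hv : D.IsHolVF v) :
    SmoothFn (n := n) (atX fun e z => (sqV w v e z).re : X → ℝ) := by
  refine smoothFn_atX (fun e x hx => ?_) fun e e' x hx hx' => ?_
  · have h1 : MC ∞ (rowV v e) (e x) := MC_of_analyticAt (rowV_analytic hv hx)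
    have h2 : MC ∞ (w e) (e x) := hw.toIsHermitian.smooth e x hx
    exact Complex.reCLM.contDiff.contDiffAt.comp (e x) ((h1.mul h2).mul h1.conjTranspose).trace
  · rw [sqV_change hw.toIsHermitian hv hx hx']

theorem dz_dzb_trace {ι : Type*} [Fintype ι] [DecidableEq ι] {M : Cm n → Matrix ι ι ℂ} {z : Cm n}
    {k l : Fin n} (hM : MC 2 M z) :
    dz k (dzb l fun y => (M y).trace) z = (DM k (DMb l M) z).trace := by
  have one := one_ne_zero_inf
  have e : (dzb l fun y => (M y).trace) =ᶠ[𝓝 z] fun y => (DMb l M y).trace := by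
    filter_upwards [MC.eventually (q := 1) (hM.mono (by norm_num))] with y hy
    exact dzb_trace (hy.md one)
  rw [dz_congr k e, dz_trace ((hM.DMb (m' := 1) (by norm_num)).md one)]

theorem lapX_eq_of_chart {u : X → ℝ} (hwH : IsHermitian w) (hus : SmoothFn (n := n) u)
    (hx : At e x) {F : Cm n → ℂ} (hF : ∀ᶠ y in 𝓝 (e x), u (e.symm y) = (F y).re)
    (hc : ∀ᶠ y in 𝓝 (e x), (starRingEnd ℂ) (F y) = F y) :
    lapX w u x = (∑ l, ∑ k, (w e (e x))⁻¹ l k * dz k (dzb l F) (e x)).re := by
  rw [lapX_eq hwH hus hx, lapE, hess, C2.cHess_congr hF, trace_mul_cHess]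
  simp only [cHess_re hc]

theorem nab_eq_zero_of_ricZero (hw : IsKahler w) (hric : D.RicZero w) (hv : D.IsHolVF v)
    (hx : At e x) (k : Fin n) : nab k (rowV v e) (w e) (e x) = 0 := by
  have hwH := hw.toIsHermitian
  set u : X → ℝ := atX fun e z => (sqV w v e z).re with hu
  have hus : SmoothFn (n := n) u := smooth_sqV hw hv
  have hue : ∀ (e : Chart n X) (x : X), At e x → ∀ᶠ y in 𝓝 (e x), u (e.symm y) = (sqV w v e y).re := by
    intro e x hx
    filter_upwards [eventually_at hx] with y hy
    have := sqV_change hwH hv (at_chartAt (n := n) (e.symm y)) hy.1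
    rw [hy.2] at this
    show (sqV w v _ _).re = _
    rw [this]
  have hcj : ∀ (e : Chart n X) (x : X), At e x →
      ∀ᶠ y in 𝓝 (e x), (starRingEnd ℂ) (sqV w v e y) = sqV w v e y := by
    intro e x hx
    filter_upwards [eventually_at hx] with y hy
    have := sqV_conj (v := v) (hwH.posDef e _ hy.1).isHermitian
    rwa [hy.2] at this
  -- the Laplacian
  have key : ∀ (e : Chart n X) (x : X), At e x → lapX w u x =
      (∑ l, ∑ k, (w e (e x))⁻¹ l k * ((1 : Matrix Unit Unit ℂ) * nab k (rowV v e) (w e) (e x) *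
        w e (e x) * (nab l (rowV v e) (w e) (e x))ᴴ).trace).re := by
    intro e x hx
    have hS : MC 2 (rowV v e) (e x) := MC_of_analyticAt (rowV_analytic hv hx)
    have hH : MC 2 (w e) (e x) := IsHermitian.MC hwH hx
    rw [lapX_eq_of_chart hwH hus hx (hue e x hx) (hcj e x hx)]
    congr 1
    have e1 : ∀ k l, dz k (dzb l (sqV w v e)) (e x) =
        (nab k (rowV v e) (w e) (e x) * w e (e x) * (nab l (rowV v e) (w e) (e x))ᴴ).trace -
          (rowV v e (e x) * RM k l (w e) (e x) * (rowV v e (e x))ᴴ).trace := by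
      intro k l
      have := dz_dzb_trace (k := k) (l := l) ((hS.mul hH).mul hS.conjTranspose)
      rw [D2_sandwich hS hH (holNear_of_analyticAt (rowV_analytic hv hx))
        (IsHermitian.ev_herm hwH hx) (hwH.posDef e x hx).det_pos.ne', Matrix.trace_sub] at this
      exact this
    have e2 : ∑ l, ∑ k, (w e (e x))⁻¹ l k *
        (rowV v e (e x) * RM k l (w e) (e x) * (rowV v e (e x))ᴴ).trace = 0 := by
      have h1 : (rowV v e (e x) * RmS (w e) (w e) (e x) * (rowV v e (e x))ᴴ).trace = 0 := by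
        rw [RmS_self' hw hx, hric e x hx]; simp
      rw [← h1, RmS]
      simp only [Matrix.mul_sum, Matrix.sum_mul, Matrix.trace_sum, Matrix.mul_smul,
        Matrix.smul_mul, Matrix.trace_smul, smul_eq_mul]
    simp only [e1, mul_sub, Finset.sum_sub_distrib, e2, sub_zero, Matrix.one_mul]
  have hnn : ∀ (e : Chart n X) (x : X), At e x →
      0 ≤ ∑ l, ∑ k, (w e (e x))⁻¹ l k * ((1 : Matrix Unit Unit ℂ) * nab k (rowV v e) (w e) (e x) *
        w e (e x) * (nab l (rowV v e) (w e) (e x))ᴴ).trace := fun e x hx =>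
    sum_trace_nonneg' (hwH.posDef e x hx).inv.posSemidef Matrix.PosSemidef.one
      (hwH.posDef e x hx).posSemidef _
  have h0 : ∀ y, 0 ≤ lapX w u y := by
    intro y
    rw [key _ y (at_chartAt y)]
    exact (Complex.le_def.1 (hnn _ y (at_chartAt y))).1
  have h1 := lapX_eq_zero hw hus h0 x
  rw [key e x hx] at h1
  have h2 := hnn e x hx
  have h3 : ∑ l, ∑ k, (w e (e x))⁻¹ l k * ((1 : Matrix Unit Unit ℂ) *
      nab k (rowV v e) (w e) (e x) * w e (e x) * (nab l (rowV v e) (w e) (e x))ᴴ).trace = 0 :=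
    Complex.ext h1 (by simpa using (Complex.le_def.1 h2).2.symm)
  exact eq_zero_of_sum_trace (hwH.posDef e x hx).inv Matrix.PosDef.one (hwH.posDef e x hx) _ h3 k

/-- **D4 (b1)**: on a compact Ricci flat Kähler manifold every holomorphic vector field is
parallel. -/
theorem isParVF_of_ricZero (hw : IsKahler w) (hric : D.RicZero w) (hv : D.IsHolVF v) :
    D.IsParVF w v := by
  have hwH := hw.toIsHermitian
  refine ⟨hv, fun e x hx => ?_⟩
  -- the column `w v̄`
  have hM : ∀ (y : X), At e y → ∀ l, DMb l (fun z => w e z * (rowV v e z)ᴴ) (e y) = 0 := by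
    intro y hy l
    have one := one_ne_zero_inf
    have hS : MC 1 (rowV v e) (e y) := MC_of_analyticAt (rowV_analytic hv hy)
    have hH : MC 1 (w e) (e y) := (IsHermitian.MC hwH hy).mono (by norm_num)
    have h1 := nab_conjTranspose (S := rowV v e) (l := l) (hH.md one) (IsHermitian.ev_herm hwH hy)
    rw [nab_eq_zero_of_ricZero hw hric hv hy l, Matrix.conjTranspose_zero] at h1
    rw [DMb_mul (hH.md one) (hS.conjTranspose.md one), DMb_conjTranspose (hS.md one)]
    have h2 := congrArg (w e (e y) * ·) h1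
    have hu : IsUnit (w e (e y)).det := isUnit_iff_ne_zero.2 (hwH.posDef e y hy).det_pos.ne'
    simp only [Matrix.mul_zero, Matrix.mul_add, ← Matrix.mul_assoc, Matrix.mul_nonsing_inv _ hu,
      Matrix.one_mul] at h2
    rw [add_comm]
    exact h2.symm
  have hC : ∀ (y : X), At e y → MC 1 (fun z => w e z * (rowV v e z)ᴴ) (e y) := by
    intro y hy
    have hS : MC 1 (rowV v e) (e y) := MC_of_analyticAt (rowV_analytic hv hy)
    exact ((IsHermitian.MC hwH hy).mono (by norm_num)).mul hS.conjTranspose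
  refine AnalyticAt.pi fun i => analyticAt_of_dzb ?_
  have hfun : (fun z => D.lowerV w v e z i) = fun z => (w e z * (rowV v e z)ᴴ) i () := rfl
  rw [hfun]
  filter_upwards [eventually_at hx] with z hz
  have h1 := hC _ hz.1 i ()
  have h2 := fun l => congrFun (congrFun (hM _ hz.1 l) i) ()
  rw [hz.2] at h1 h2
  exact ⟨h1.differentiableAt (by norm_num), h2⟩

end vf

end Vale.Agent.P299.H954
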